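import Vale.Agent.P371E.Spec

/-!
Small tools: compactness of bounded sets of matrices, almost everywhere convergence, closedness.
-/

namespace Vale.Agent.P371EL

open MeasureTheory Filter Topology Matrix Set
open Vale.Agent.P371 Vale.Agent.P371.G Vale.Agent.P371.PI Vale.Agent.P371E
open scoped ComplexOrder MatrixOrder Matrix.Norms.L2Operator

theorem cpt_set (a b : ℕ) (C : ℝ) : IsCompact {A : Mat a b | ∀ i j, ‖A i j‖ ≤ C} := by
  have h : IsCompact (Set.pi univ fun _ : Fin a => Set.pi univ fun _ : Fin b =>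
      Metric.closedBall (0 : ℂ) C) :=
    isCompact_univ_pi fun _ => isCompact_univ_pi fun _ => isCompact_closedBall _ _
  have e : {A : Mat a b | ∀ i j, ‖A i j‖ ≤ C} = Set.pi univ fun _ : Fin a =>
      Set.pi univ fun _ : Fin b => Metric.closedBall (0 : ℂ) C := by
    ext A
    exact ⟨fun h i _ j _ => mem_closedBall_zero_iff.2 (h i j),
      fun h i j => mem_closedBall_zero_iff.1 (h i trivial j trivial)⟩
  rw [e]
  exact h

theorem cpt {a b : ℕ} (A : ℕ → Mat a b) (C : ℝ) (h : ∀ n i j, ‖A n i j‖ ≤ C) :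
    ∃ (A0 : Mat a b) (φ : ℕ → ℕ), StrictMono φ ∧ Tendsto (fun n => A (φ n)) atTop (𝓝 A0) := by
  obtain ⟨A0, -, φ, hφ, ht⟩ := (cpt_set a b C).tendsto_subseq (x := A) h
  exact ⟨A0, φ, hφ, ht⟩

theorem entry_le {a b : ℕ} (A : Mat a b) (i : Fin a) (j : Fin b) : ‖A i j‖ ≤ ‖A‖ := by
  have h := l2_opNorm_mulVec A (EuclideanSpace.single j 1)
  have h2 := PiLp.norm_apply_le ((EuclideanSpace.equiv (Fin a) ℂ).symm
    (A *ᵥ (EuclideanSpace.single j (1 : ℂ)))) i
  simp only [PiLp.norm_single, norm_one, mul_one] at h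
  refine le_trans (le_of_eq ?_) (h2.trans h)
  simp

theorem sq_entry_le {a b : ℕ} (A : Mat a b) (i : Fin a) (j : Fin b) :
    ‖A i j‖ ^ 2 ≤ ((Aᴴ * A) j j).re := by
  rw [Matrix.mul_apply, Complex.re_sum]
  have e : ∀ k, ((Aᴴ) j k * A k j).re = ‖A k j‖ ^ 2 := fun k => by
    rw [conjTranspose_apply, Complex.star_def, Complex.conj_mul', ← Complex.ofReal_pow,
      Complex.ofReal_re]
  simp only [e]
  exact Finset.single_le_sum (f := fun k => ‖A k j‖ ^ 2) (fun _ _ => by positivity)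
    (Finset.mem_univ i)

theorem entry_le_one {a b : ℕ} {A : Mat a b} (h : (1 - Aᴴ * A).PosSemidef) (i : Fin a)
    (j : Fin b) : ‖A i j‖ ≤ 1 := by
  have h1 := (sq_entry_le A i j).trans (diag_re_le_one h j)
  nlinarith [norm_nonneg (A i j)]

theorem psd_lim {a : ℕ} {A : ℕ → Mat a a} {A0 : Mat a a} (h : Tendsto A atTop (𝓝 A0))
    (hp : ∀ n, (A n).PosSemidef) : A0.PosSemidef :=
  nonneg_iff_posSemidef.1 (ge_of_tendsto' h fun n => nonneg_iff_posSemidef.2 (hp n))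

theorem dg_herm {N : ℕ} (d : Fin N → ℝ) : (dg d).IsHermitian := by
  rw [dg, IsHermitian, diagonal_conjTranspose]
  congr 1
  funext i
  simp

theorem dg_mul {N : ℕ} (d e : Fin N → ℝ) : dg d * dg e = dg fun i => d i * e i := by
  rw [dg, dg, dg, diagonal_mul_diagonal]
  congr 1
  funext i
  push_cast
  rfl

theorem dg_sub {N : ℕ} (d e : Fin N → ℝ) : dg d - dg e = dg fun i => d i - e i := by
  rw [dg, dg, dg, diagonal_sub]
  congr 1
  funext i
  push_cast
  rfl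

theorem dg_smul {N : ℕ} (c : ℝ) (d : Fin N → ℝ) : (c : ℂ) • dg d = dg fun i => c * d i := by
  rw [dg, dg, ← diagonal_smul]
  congr 1
  funext i
  simp

theorem dg_one {N : ℕ} : dg (fun _ : Fin N => (1 : ℝ)) = 1 := by
  rw [dg]
  simp

theorem conj_mul {N : ℕ} {U : Mat N N} (hU : Uᴴ * U = 1) (A B : Mat N N) :
    U * A * Uᴴ * (U * B * Uᴴ) = U * (A * B) * Uᴴ := by
  calc U * A * Uᴴ * (U * B * Uᴴ) = U * A * (Uᴴ * U) * B * Uᴴ := by simp only [Matrix.mul_assoc]
    _ = _ := by rw [hU, Matrix.mul_one, Matrix.mul_assoc U A B]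

theorem trPow_conj {N : ℕ} {U : Mat N N} (hU : Uᴴ * U = 1) (p : ℝ) (d : Fin N → ℝ) :
    trPow p (U * dg d * Uᴴ) = ∑ i, d i ^ p := by
  have h1 : (U * dg d * Uᴴ).IsHermitian := isHermitian_mul_mul_conjTranspose U (dg_herm d)
  have h2 : h1.eigenvalues = (dg_herm d).eigenvalues := by
    rw [IsHermitian.eigenvalues_eq_eigenvalues_iff, charpoly_mul_comm, ← Matrix.mul_assoc, hU,
      Matrix.one_mul]
  have h3 := trPow_diagonal p d
  rw [← h3]
  change _ = trPow p (dg d)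
  rw [trPow, trPow, dif_pos h1, dif_pos (dg_herm d), h2]

theorem regV_ker {m N : ℕ} (ε : ℝ) (Φ : Mat m N) (ξ : Fin m → ℂ) (h : Φᴴ *ᵥ ξ = 0) :
    regV ε Φ *ᵥ ξ = 0 := by
  rw [regV, ← mulVec_mulVec, ← self_mul_conjTranspose_mulVec_eq_zero, mulVec_mulVec,
    ← regS_commute, ← mulVec_mulVec, ← mulVec_mulVec, h, mulVec_zero, mulVec_zero]

/-- summable integrals on exhausting intervals give almost everywhere convergence -/
theorem ae_zero {h : ℕ → ℝ → ℝ} {ρ σ : ℕ → ℝ} (h0 : ∀ n x, 0 ≤ h n x) (hρ0 : ∀ n, 0 ≤ ρ n)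
    (hρ : Tendsto ρ atTop atTop) (hσ0 : ∀ n, 0 ≤ σ n) (hσ : Summable σ)
    (hi : ∀ n, IntervalIntegrable (h n) volume (-ρ n) (ρ n))
    (hle : ∀ n, ∫ x in (-ρ n)..(ρ n), h n x ≤ σ n) :
    ∀ᵐ x, Tendsto (fun n => h n x) atTop (𝓝 0) := by
  have hab : ∀ n, -ρ n ≤ ρ n := fun n => by linarith [hρ0 n]
  set g : ℕ → ℝ → ENNReal := fun n =>
    (Ioc (-ρ n) (ρ n)).indicator fun x => ENNReal.ofReal (h n x) with hg
  have hI : ∀ n, IntegrableOn (h n) (Ioc (-ρ n) (ρ n)) volume := fun n =>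
    (intervalIntegrable_iff_integrableOn_Ioc_of_le (hab n)).1 (hi n)
  have hm : ∀ n, AEMeasurable (g n) volume := fun n =>
    (aemeasurable_indicator_iff measurableSet_Ioc).2 (hI n).aemeasurable.ennreal_ofReal
  have hb : ∀ n, ∫⁻ x, g n x ≤ ENNReal.ofReal (σ n) := fun n => by
    rw [hg, lintegral_indicator measurableSet_Ioc,
      ← ofReal_integral_eq_lintegral_ofReal (hI n) (Eventually.of_forall fun x => h0 n x),
      ← intervalIntegral.integral_of_le (hab n)]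
    exact ENNReal.ofReal_le_ofReal (hle n)
  have hs : ∫⁻ x, ∑' n, g n x ≠ ⊤ := by
    rw [lintegral_tsum hm]
    refine ne_top_of_le_ne_top ?_ (ENNReal.tsum_le_tsum hb)
    rw [← ENNReal.ofReal_tsum_of_nonneg hσ0 hσ]
    exact ENNReal.ofReal_ne_top
  filter_upwards [ae_lt_top' (AEMeasurable.tsum hm) hs] with x hx
  have h1 := ENNReal.tendsto_atTop_zero_of_tsum_ne_top hx.ne
  have h2 := (ENNReal.tendsto_toReal ENNReal.zero_ne_top).comp h1
  refine (show Tendsto _ atTop (𝓝 (0 : ℝ)) from h2).congr' ?_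
  filter_upwards [hρ.eventually_gt_atTop |x|] with n hn
  have hx1 : x ∈ Ioc (-ρ n) (ρ n) := ⟨by linarith [neg_abs_le x], by linarith [le_abs_self x]⟩
  simp only [Function.comp, hg, indicator_of_mem hx1, ENNReal.toReal_ofReal (h0 n x)]

end Vale.Agent.P371EL
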