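import Vale.Agent.P371EL.Kit

/-!
The limit of the approximants of an optimal system.
-/

namespace Vale.Agent.P371EL

open MeasureTheory Filter Topology Matrix Set
open Vale.Agent.P371 Vale.Agent.P371.G Vale.Agent.P371.PI Vale.Agent.P371E
open scoped ComplexOrder MatrixOrder Matrix.Norms.L2Operator

variable {m N : ℕ}

theorem r_bound {lam : Fin N → ℝ} (hl : ∀ j, lam j < 0) {r : Mat N N} (hr : r.IsHermitian) {A : ℝ}
    (h : (r * r * Lam lam).trace.re ≤ A) (i j : Fin N) : ‖r i j‖ ≤ ∑ l, |A / (-lam l)| + 1 := by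
  have e : (r * r * Lam lam).trace.re = ∑ l, ((rᴴ * r) l l).re * (-lam l) := by
    rw [hr.eq, Matrix.trace, Complex.re_sum]
    refine Finset.sum_congr rfl fun l _ => ?_
    rw [diag_apply, Lam, dg, mul_diagonal, Complex.re_mul_ofReal]
  have h0 : ∀ l, 0 ≤ ((rᴴ * r) l l).re * (-lam l) := fun l =>
    mul_nonneg ((sq_nonneg _).trans (sq_entry_le r l l)) (by linarith [hl l])
  have h1 : ((rᴴ * r) j j).re * (-lam j) ≤ A :=
    (Finset.single_le_sum (fun l _ => h0 l) (Finset.mem_univ j)).trans (e ▸ h)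
  have h2 : ‖r i j‖ ^ 2 ≤ A / (-lam j) := by
    rw [le_div_iff₀ (by linarith [hl j])]
    exact (mul_le_mul_of_nonneg_right (sq_entry_le r i j) (by linarith [hl j])).trans h1
  have h3 : |A / (-lam j)| ≤ ∑ l, |A / (-lam l)| :=
    Finset.single_le_sum (f := fun l => |A / (-lam l)|) (fun _ _ => abs_nonneg _)
      (Finset.mem_univ j)
  nlinarith [le_abs_self (A / (-lam j)), sq_nonneg (‖r i j‖ - 1), norm_nonneg (r i j)]

theorem rs {γ : ℝ} (W : ℝ → Mat m m) {lam : Fin N → ℝ} (hl : ∀ j, lam j < 0) :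
    ∃ C : ℝ, ∀ (f f' : Fin N → ℝ → Vec m) (R σ ε : ℝ) (V : ℝ → Mat m m) (K r : Mat N N)
      (F : ℝ → Mat N N), Apx γ W lam f f' R σ ε V K r F →
      (∀ i j, ‖r i j‖ ≤ C) ∧ (∃ s : Mat N N, r * s = 1 ∧ ∀ i j, ‖s i j‖ ≤ C) ∧
      (γ ≤ 1 → r * (K * K) = K * K * r) ∧ (1 < γ → Lam lam * r = r * Lam lam) := by
  set s0 : Mat N N := dg fun j => (-lam j) ^ (-((γ - 1) / 2)) with hs0
  set C1 : ℝ := ∑ l, |2 * (Cg γ * II γ W + 1) / (-lam l)| + 1 with hC1
  refine ⟨max C1 (max ‖s0‖ (|Bd γ W| ^ (1 - γ))), fun f f' R σ ε V K r F h => ?_⟩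
  rcases h.rdef with ⟨hγ, hr⟩ | ⟨hγ, hr, -⟩
  · have hrh : r.IsHermitian := by rw [hr]; exact cfc_predicate (R := ℝ) _ _
    refine ⟨fun i j => (r_bound hl hrh h.rb i j).trans (le_max_left _ _),
      ⟨cfc (fun x : ℝ => x ^ (1 - γ)) K, ?_, fun i j => ?_⟩, fun _ => ?_,
      fun h' => absurd hγ (not_le.2 h')⟩
    · rw [hr, ← cfc_mul _ _ K (contOn_spectrum K _) (contOn_spectrum K _),
        ← cfc_one_eq h.Kp.isHermitian]
      refine cfc_congr fun x hx => ?_
      have hx0 := posSpec h.Kp x hx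
      change x ^ (γ - 1) * x ^ (1 - γ) = 1
      rw [← Real.rpow_add hx0, show γ - 1 + (1 - γ) = 0 by ring, Real.rpow_zero]
    · refine (entry_le _ i j).trans (le_trans ?_ ((le_max_right _ _).trans (le_max_right _ _)))
      refine norm_cfc_le (Real.rpow_nonneg (abs_nonneg _) _) fun x hx => ?_
      have hx0 := posSpec h.Kp x hx
      have hKs : IsSelfAdjoint K := h.Kp.isHermitian
      have hx2 : x ≤ ‖K‖ := (le_algebraMap_iff_spectrum_le (ha := hKs)).mp
        hKs.le_algebraMap_norm_self x hx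
      rw [Real.norm_eq_abs, abs_of_nonneg (Real.rpow_nonneg hx0.le _)]
      exact Real.rpow_le_rpow hx0.le (hx2.trans (h.Kn.trans (le_abs_self _))) (by linarith)
    · have hc : Commute r K := by
        rw [hr]
        exact (Commute.refl K).cfc_real _
      exact (hc.mul_right hc).eq
  · have hrh : r.IsHermitian := by rw [hr]; exact dg_herm _
    refine ⟨fun i j => (r_bound hl hrh h.rb i j).trans (le_max_left _ _),
      ⟨s0, ?_, fun i j => (entry_le _ i j).trans ((le_max_left _ _).trans (le_max_right _ _))⟩,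
      fun h' => absurd h' (not_le.2 hγ), fun _ => ?_⟩
    · rw [hr, hs0, dg_mul, ← dg_one]
      congr 1
      funext j
      rw [← Real.rpow_add (by linarith [hl j]), add_neg_cancel, Real.rpow_zero]
    · rw [hr, Lam, dg_mul, dg_mul]
      congr 1
      funext j
      ring

theorem t_mul {a b c : ℕ} {A : ℕ → Mat a b} {B : ℕ → Mat b c} {A0 : Mat a b} {B0 : Mat b c}
    (hA : Tendsto A atTop (𝓝 A0)) (hB : Tendsto B atTop (𝓝 B0)) :
    Tendsto (fun n => A n * B n) atTop (𝓝 (A0 * B0)) := by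
  have h : Continuous fun p : Mat a b × Mat b c => p.1 * p.2 :=
    continuous_fst.matrix_mul continuous_snd
  have h2 : Tendsto (fun n => (A n, B n)) atTop (𝓝 (A0, B0)) := hA.prodMk_nhds hB
  have h3 := (h.tendsto (A0, B0)).comp h2
  simpa only [Function.comp_def] using h3

theorem t_ct {a b : ℕ} {A : ℕ → Mat a b} {A0 : Mat a b} (hA : Tendsto A atTop (𝓝 A0)) :
    Tendsto (fun n => (A n)ᴴ) atTop (𝓝 A0ᴴ) :=
  ((continuous_id.matrix_conjTranspose).tendsto A0).comp hA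

theorem pt_lim {T : ℕ → Mat N m} {V : ℕ → Mat m m} {W0 : Mat m m} {Q0 : Mat N N} (P : Mat m N)
    (hT : ∀ n, (1 - (T n)ᴴ * T n).PosSemidef) (hV : Tendsto V atTop (𝓝 W0))
    (hQ : Tendsto (fun n => T n * V n * (T n)ᴴ) atTop (𝓝 Q0))
    (hk : ∀ n, ∀ ξ : Fin m → ℂ, Pᴴ *ᵥ ξ = 0 → T n *ᵥ ξ = 0) :
    ∃ T0 : Mat N m, (1 - T0ᴴ * T0).PosSemidef ∧ T0 * W0 * T0ᴴ = Q0 ∧
      ∀ ξ : Fin m → ℂ, Pᴴ *ᵥ ξ = 0 → T0 *ᵥ ξ = 0 := by
  obtain ⟨T0, φ, hφ, ht⟩ := cpt T 1 fun n i j => entry_le_one (hT n) i j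
  refine ⟨T0, psd_lim (tendsto_const_nhds.sub (t_mul (t_ct ht) ht)) fun n => hT (φ n),
    tendsto_nhds_unique (t_mul (t_mul ht (hV.comp hφ.tendsto_atTop)) (t_ct ht))
      (hQ.comp hφ.tendsto_atTop), fun ξ hξ => ?_⟩
  have h1 : Tendsto (fun n => T (φ n) *ᵥ ξ) atTop (𝓝 (T0 *ᵥ ξ)) :=
    ((continuous_id.matrix_mulVec continuous_const).tendsto T0).comp ht
  simp only [hk _ ξ hξ] at h1
  exact (tendsto_nhds_unique tendsto_const_nhds h1).symm

theorem q_lim {ν : ℝ} (hν : 0 < ν) {K F Q : ℕ → Mat N N} {U : Mat N N} (hU : Uᴴ * U = 1)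
    {k c : Fin N → ℝ} {x : ℝ} (hK : Tendsto K atTop (𝓝 (U * dg k * Uᴴ)))
    (hF : Tendsto F atTop (𝓝 (U * dg (fun i => gS ν (k i) (c i) x) * Uᴴ)))
    (he : Tendsto (fun n => eta (K n) (F n) (th ν (Q n))) atTop (𝓝 0)) :
    Tendsto Q atTop (𝓝 (U * dg (fun i => wS ν (k i) (c i) x) * Uᴴ)) := by
  have h1 : Tendsto (fun n => th ν (Q n) - (K n * K n - F n * F n)) atTop (𝓝 0) := by
    rw [tendsto_zero_iff_norm_tendsto_zero]
    exact squeeze_zero (fun _ => norm_nonneg _)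
      (fun n => le_add_of_nonneg_right (norm_nonneg _)) he
  have h2 := (h1.add ((t_mul hK hK).sub (t_mul hF hF))).const_smul (((1 + 1 / ν : ℝ)) : ℂ)
  have e1 : ∀ n, (((1 + 1 / ν : ℝ)) : ℂ) • (th ν (Q n) - (K n * K n - F n * F n) +
      (K n * K n - F n * F n)) = Q n := fun n => by
    rw [sub_add_cancel, th, smul_smul, ← Complex.ofReal_mul,
      show (1 + 1 / ν) * (ν / (1 + ν)) = 1 by field_simp; ring, Complex.ofReal_one, one_smul]
  simp only [e1] at h2
  rw [zero_add, conj_mul hU, conj_mul hU, ← Matrix.sub_mul, ← Matrix.mul_sub, dg_mul, dg_mul,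
    dg_sub, ← Matrix.smul_mul, ← Matrix.mul_smul, dg_smul] at h2
  have e2 : (fun i => (1 + 1 / ν) * (k i * k i - gS ν (k i) (c i) x * gS ν (k i) (c i) x)) =
      fun i => wS ν (k i) (c i) x := by
    funext i
    rw [wS, gS, ← one_sub_tn_sq]
    ring
  rwa [e2] at h2

theorem eta_cont (ν : ℝ) (K : Mat N N) {F Q : ℝ → Mat N N} {s : Set ℝ} (hF : ContinuousOn F s)
    (hQ : ContinuousOn Q s) : ContinuousOn (fun x => eta K (F x) (th ν (Q x))) s := by
  have h1 : ContinuousOn (fun x => th ν (Q x)) s := hQ.const_smul ((ν / (1 + ν) : ℝ) : ℂ)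
  have h2 : ContinuousOn (fun x => th ν (Q x) - (K * K - F x * F x)) s :=
    h1.sub (continuousOn_const.sub (hF.mul hF))
  have h3 : ContinuousOn (fun x => K * K * F x - F x * (K * K)) s :=
    (continuousOn_const.mul hF).sub (hF.mul continuousOn_const)
  exact h2.norm.add h3.norm

theorem lim_of (hA : APX) (hO : ODE) (hC : COL) : LIM := by
  intro γ h1 h2 m N W lam f f' hW hS heq
  have hν : 0 < γ - 1 / 2 := by linarith
  have hH : ∀ j, IsH1 (f j) (f' j) := fun j => (hS.eig j).isH1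
  set ρ : ℕ → ℝ := fun n => (n : ℝ) + 1 with hρ
  set σ : ℕ → ℝ := fun n => (1 / 2 : ℝ) ^ n with hσ
  have hρ0 : ∀ n, 0 < ρ n := fun n => by positivity
  have hσ0 : ∀ n, 0 < σ n := fun n => by positivity
  have hρt : Tendsto ρ atTop atTop := tendsto_atTop_add_const_right _ _ tendsto_natCast_atTop_atTop
  have hσs : Summable σ := summable_geometric_two
  have ex : ∀ n, ∃ ε V K r F, Apx γ W lam f f' (ρ n) (σ n) ε V K r F := fun n => by
    obtain ⟨δ, hδ, h⟩ := hA γ h1 h2 m W hW (ρ n) (σ n) (hρ0 n) (hσ0 n)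
    exact h N lam f f' hS (by linarith)
  choose ε V K r F hap using ex
  set Q : ℕ → ℝ → Mat N N := fun n x => regQ (ε n) (psiM f x * r n) (V n x) with hQ
  have hQc : ∀ n, Continuous (Q n) := fun n => continuous_regQ (hap n).eps hH (r n) (hap n).Vc
  have hFc : ∀ n, ContinuousOn (F n) (Icc (-ρ n) (ρ n)) := fun n x hx =>
    ((hap n).der x hx).continuousAt.continuousWithinAt
  have hab : ∀ n, -ρ n ≤ ρ n := fun n => by linarith [hρ0 n]
  have hWl : LocallyIntegrable W volume := locInt (by linarith) hW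
  have ae1 : ∀ᵐ x, Tendsto (fun n => ‖V n x - W x‖) atTop (𝓝 0) :=
    ae_zero (fun _ _ => norm_nonneg _) (fun n => (hρ0 n).le) hρt (fun n => (hσ0 n).le) hσs
      (fun n => (((hap n).Vc.intervalIntegrable _ _).sub
        (hWl.integrableOn_isCompact isCompact_uIcc).intervalIntegrable).norm) fun n => (hap n).near
  have ae2 : ∀ᵐ x, Tendsto (fun n => eta (K n) (F n x) (th (γ - 1 / 2) (Q n x))) atTop (𝓝 0) := by
    refine ae_zero (fun _ _ => add_nonneg (norm_nonneg _) (norm_nonneg _)) (fun n => (hρ0 n).le)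
      hρt (fun n => (hσ0 n).le) hσs (fun n => ?_) fun n => (hap n).d4
    refine ContinuousOn.intervalIntegrable ?_
    rw [uIcc_of_le (hab n)]
    exact eta_cont _ _ (hFc n) (hQc n).continuousOn
  obtain ⟨C, hCb⟩ := rs (γ := γ) W hS.neg
  have hb := fun n => hCb f f' _ _ _ _ _ _ _ (hap n)
  choose s hs1 hs2 using fun n => (hb n).2.1
  obtain ⟨r0, φ1, hφ1, hr1⟩ := cpt r C fun n => (hb n).1
  obtain ⟨s0, φ2, hφ2, hs0⟩ := cpt (fun n => s (φ1 n)) C fun n => hs2 _
  have hrs : r0 * s0 = 1 := by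
    have h3 := t_mul (hr1.comp hφ2.tendsto_atTop) hs0
    simp only [Function.comp, hs1] at h3
    exact (tendsto_nhds_unique tendsto_const_nhds h3).symm
  have hu : IsUnit r0 := IsUnit.of_mul_eq_one _ hrs
  have hψ : StrictMono fun n => φ1 (φ2 n) := hφ1.comp hφ2
  obtain ⟨φ3, U, k, g, hφ3, hU, hk0, hTri, hK, hF⟩ := hO (γ - 1 / 2) (Bd γ W) N
    (fun n => K (φ1 (φ2 n))) (fun n => F (φ1 (φ2 n))) (fun n => Q (φ1 (φ2 n)))
    (fun n => ρ (φ1 (φ2 n))) (fun n => σ (φ1 (φ2 n))) hν (hρt.comp hψ.tendsto_atTop)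
    (hσs.tendsto_atTop_zero.comp hψ.tendsto_atTop) (fun n => (hap _).Kp.posSemidef)
    (fun n => (hap _).Kn) (fun n => hQc _) (fun n => (hap _).der) (fun n => (hap _).sand)
    fun n => (hap _).d4
  set χ : ℕ → ℕ := fun n => φ1 (φ2 (φ3 n)) with hχd
  have hχ : Tendsto χ atTop atTop := (hψ.comp hφ3).tendsto_atTop
  have hr : Tendsto (fun n => r (χ n)) atTop (𝓝 r0) :=
    hr1.comp (hφ2.comp hφ3).tendsto_atTop
  obtain ⟨c, C0, hc, hcol⟩ := hC (γ - 1 / 2) m N f f' (fun n => r (χ n)) r0 U (fun n => F (χ n)) k g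
    (fun n => ρ (χ n)) (fun n => σ (χ n)) hν hH hS.on hr hu hU hTri (hρt.comp hχ)
    (hσs.tendsto_atTop_zero.comp hχ) (fun n => hFc _) hF (fun n => (hap _).d2i) fun n => (hap _).d2
  have hU' : U * Uᴴ = 1 := mul_eq_one_comm.1 hU
  have hK2 : U * dg k * Uᴴ * (U * dg k * Uᴴ) = U * dg (fun i => k i ^ 2) * Uᴴ := by
    rw [conj_mul hU, dg_mul]
    simp only [sq]
  refine ⟨r0 * U, k, c, C0, hu.mul (IsUnit.of_mul_eq_one _ hU'), fun i => (hc i).1, ?_, ?_,
    fun x => by rw [← Matrix.mul_assoc]; exact hcol x, ?_⟩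
  · rcases le_or_gt γ 1 with hγ | hγ
    · refine ⟨U * dg (fun i => k i ^ 2) * Uᴴ,
        isHermitian_mul_mul_conjTranspose U (dg_herm _), Or.inl ?_⟩
      have h3 := t_mul hr (t_mul hK hK)
      have h4 := t_mul (t_mul hK hK) hr
      have e : (fun n => r (χ n) * (K (χ n) * K (χ n))) = fun n => K (χ n) * K (χ n) * r (χ n) :=
        funext fun n => (hb (χ n)).2.2.1 hγ
      rw [e] at h3
      have h5 := tendsto_nhds_unique h3 h4
      rw [hK2] at h5
      rw [← Matrix.mul_assoc, ← h5]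
      simp only [Matrix.mul_assoc, hU, Matrix.mul_one]
    · refine ⟨Uᴴ * Lam lam * U, isHermitian_conjTranspose_mul_mul U (dg_herm _), Or.inr ?_⟩
      have h3 := t_mul (tendsto_const_nhds (x := Lam lam)) hr
      have h4 := t_mul hr (tendsto_const_nhds (x := Lam lam))
      have e : (fun n => Lam lam * r (χ n)) = fun n => r (χ n) * Lam lam :=
        funext fun n => (hb (χ n)).2.2.2 hγ
      rw [e] at h3
      have h5 := tendsto_nhds_unique h3 h4
      calc Lam lam * (r0 * U) = r0 * (U * Uᴴ) * Lam lam * U := by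
            rw [← Matrix.mul_assoc, h5, hU', Matrix.mul_one]
        _ = _ := by simp only [Matrix.mul_assoc]
  · have h3 := tendsto_trPow hK (Eventually.of_forall fun n => (hap (χ n)).Kp.posSemidef)
      (psd_lim hK fun n => (hap (χ n)).Kp.posSemidef) (p := 2 * γ) (by linarith)
    rw [trPow_conj hU] at h3
    have h4 := (hσs.tendsto_atTop_zero.comp hχ).const_sub (∑ j, |lam j| ^ γ)
    rw [sub_zero] at h4
    exact le_of_tendsto_of_tendsto' h4 h3 fun n => (hap (χ n)).Kl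
  · filter_upwards [ae1, ae2] with x hx1 hx2
    have hFx := (hF |x|).tendsto_at (x := x) ⟨neg_abs_le x, le_abs_self x⟩
    have eg : (fun i => g i x) = fun i => gS (γ - 1 / 2) (k i) (c i) x :=
      funext fun i => by rw [(hc i).2]
    rw [eg] at hFx
    have hQx := q_lim hν hU hK hFx (hx2.comp hχ)
    obtain ⟨T, hT1, hT2, hT3⟩ := pt_lim (T := fun n => regV (ε (χ n)) (psiM f x * r (χ n)))
      (V := fun n => V (χ n) x) (W0 := W x) (psiM f x) (fun n => regV_contr1 _ (hap _).eps)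
      ((tendsto_iff_norm_sub_tendsto_zero.2 hx1).comp hχ) hQx
      fun n ξ hξ => regV_ker _ _ ξ (by rw [conjTranspose_mul, ← mulVec_mulVec, hξ, mulVec_zero])
    refine ⟨Uᴴ * T, ?_, ?_, fun ξ hξ => by rw [← mulVec_mulVec, hT3 ξ hξ, mulVec_zero]⟩
    · rw [conjTranspose_mul, conjTranspose_conjTranspose, Matrix.mul_assoc, ← Matrix.mul_assoc U,
        hU', Matrix.one_mul]
      exact hT1
    · calc Uᴴ * T * W x * (Uᴴ * T)ᴴ = Uᴴ * (T * W x * Tᴴ) * U := by
            rw [conjTranspose_mul, conjTranspose_conjTranspose]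
            simp only [Matrix.mul_assoc]
        _ = (Uᴴ * U) * dg (fun i => wS (γ - 1 / 2) (k i) (c i) x) * (Uᴴ * U) := by
            rw [hT2]
            simp only [Matrix.mul_assoc]
        _ = _ := by rw [hU, Matrix.one_mul, Matrix.mul_one]

end Vale.Agent.P371EL
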