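import Mathlib

/-!
Two-sided Gronwall estimates on a compact interval.
-/

set_option autoImplicit false

namespace Vale.Agent.P371EL

open Set MeasureTheory

variable {E : Type*} [NormedAddCommGroup E] [NormedSpace ℝ E]

theorem gb_le {δ L ε x T : ℝ} (hδ : 0 ≤ δ) (hL : 0 ≤ L) (hε : 0 ≤ ε) (hx : 0 ≤ x) (hT : x ≤ T) :
    gronwallBound δ L ε x ≤ (δ + ε * T) * Real.exp (L * T) := by
  have h1 : 1 ≤ Real.exp (L * T) := Real.one_le_exp (mul_nonneg hL (hx.trans hT))
  have h2 : Real.exp (L * x) ≤ Real.exp (L * T) :=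
    Real.exp_le_exp.2 (mul_le_mul_of_nonneg_left hT hL)
  unfold gronwallBound
  split_ifs with h
  · have : ε * x ≤ ε * T := mul_le_mul_of_nonneg_left hT hε
    have h3 : 0 ≤ δ + ε * T := add_nonneg hδ (mul_nonneg hε (hx.trans hT))
    nlinarith
  · have hL' : 0 < L := lt_of_le_of_ne hL (Ne.symm h)
    have h3 : Real.exp (L * x) - 1 ≤ L * x * Real.exp (L * x) := by
      have h4 := Real.add_one_le_exp (-(L * x))
      have h5 : Real.exp (-(L * x)) * Real.exp (L * x) = 1 := by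
        rw [← Real.exp_add]; simp
      have h6 := Real.exp_pos (L * x)
      nlinarith
    have h4 : ε / L * (Real.exp (L * x) - 1) ≤ ε * T * Real.exp (L * T) := by
      calc ε / L * (Real.exp (L * x) - 1) ≤ ε / L * (L * x * Real.exp (L * x)) :=
            mul_le_mul_of_nonneg_left h3 (div_nonneg hε hL)
        _ = ε * x * Real.exp (L * x) := by field_simp
        _ ≤ ε * T * Real.exp (L * T) :=
            mul_le_mul (mul_le_mul_of_nonneg_left hT hε) h2 (Real.exp_pos _).le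
              (mul_nonneg hε (hx.trans hT))
    have h5 : δ * Real.exp (L * x) ≤ δ * Real.exp (L * T) := mul_le_mul_of_nonneg_left h2 hδ
    linarith

theorem gr_right {v v' : ℝ → E} {a b L ε : ℝ} (hL : 0 ≤ L) (hε : 0 ≤ ε)
    (hv : ∀ x ∈ Icc a b, HasDerivWithinAt v (v' x) (Icc a b) x)
    (hb : ∀ x ∈ Icc a b, ‖v' x‖ ≤ L * ‖v x‖ + ε) {x0 x : ℝ} (h0 : x0 ∈ Icc a b)
    (hx : x ∈ Icc a b) (hle : x0 ≤ x) :
    ‖v x‖ ≤ (‖v x0‖ + ε * (b - a)) * Real.exp (L * (b - a)) := by
  have hs : Icc x0 b ⊆ Icc a b := Icc_subset_Icc_left h0.1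
  have hc : ContinuousOn v (Icc x0 b) := fun y hy => ((hv y (hs hy)).continuousWithinAt).mono hs
  have h := norm_le_gronwallBound_of_norm_deriv_right_le (f' := v') (K := L) (ε := ε) hc
    (fun y hy => (hv y (hs (Ico_subset_Icc_self hy))).mono_of_mem_nhdsWithin
      (Filter.mem_of_superset (Icc_mem_nhdsGE hy.2)
        (Icc_subset_Icc_left (h0.1.trans hy.1)))) le_rfl
    (fun y hy => hb y (hs (Ico_subset_Icc_self hy))) x ⟨hle, hx.2⟩
  exact h.trans (gb_le (norm_nonneg _) hL hε (by linarith) (by linarith [h0.1, hx.2]))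

/-- the two-sided estimate -/
theorem gr {v v' : ℝ → E} {a b L ε : ℝ} (hL : 0 ≤ L) (hε : 0 ≤ ε)
    (hv : ∀ x ∈ Icc a b, HasDerivWithinAt v (v' x) (Icc a b) x)
    (hb : ∀ x ∈ Icc a b, ‖v' x‖ ≤ L * ‖v x‖ + ε) {x0 x : ℝ} (h0 : x0 ∈ Icc a b)
    (hx : x ∈ Icc a b) : ‖v x‖ ≤ (‖v x0‖ + ε * (b - a)) * Real.exp (L * (b - a)) := by
  rcases le_total x0 x with hle | hle
  · exact gr_right hL hε hv hb h0 hx hle
  · have hm : ∀ y ∈ Icc (-b) (-a), -y ∈ Icc a b := fun y hy => ⟨by linarith [hy.2], by linarith [hy.1]⟩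
    have h := gr_right (v := fun y => v (-y)) (v' := fun y => -v' (-y)) (a := -b) (b := -a) hL hε
      (fun y hy => by
        have h1 := (hv (-y) (hm y hy)).scomp y (hasDerivWithinAt_neg y (Icc (-b) (-a))) hm
        exact h1.congr_deriv (neg_one_smul ℝ _))
      (fun y hy => by simpa using hb (-y) (hm y hy)) (x0 := -x0) (x := -x)
      ⟨by linarith [h0.2], by linarith [h0.1]⟩ ⟨by linarith [hx.2], by linarith [hx.1]⟩
      (by linarith)
    simp only [neg_neg] at h
    rwa [show -a - -b = b - a by ring] at h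

/-- the two-sided estimate with an error which is small in the mean -/
theorem gr_int [CompleteSpace E] {v w e : ℝ → E} {a b L c : ℝ} (hL : 0 ≤ L) (hc : 0 ≤ c)
    (hv : ∀ x ∈ Icc a b, HasDerivWithinAt v (w x + e x) (Icc a b) x)
    (he : ContinuousOn e (Icc a b))
    (hb : ∀ x ∈ Icc a b, ‖w x‖ ≤ L * ‖v x‖ + c) {x0 x : ℝ} (h0 : x0 ∈ Icc a b)
    (hx : x ∈ Icc a b) :
    ‖v x‖ ≤ (‖v x0‖ + (L * (∫ y in a..b, ‖e y‖) + c) * (b - a)) * Real.exp (L * (b - a)) +
      ∫ y in a..b, ‖e y‖ := by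
  have hab : a ≤ b := h0.1.trans h0.2
  set η := ∫ y in a..b, ‖e y‖ with hη
  have hi : IntervalIntegrable e volume a b := (he.mono (by rw [uIcc_of_le hab])).intervalIntegrable
  have hη0 : 0 ≤ η := intervalIntegral.integral_nonneg hab fun _ _ => norm_nonneg _
  set P : ℝ → E := fun y => ∫ z in x0..y, e z with hP
  have hsub : ∀ y ∈ Icc a b, uIcc x0 y ⊆ Icc a b := fun y hy => uIcc_subset_Icc h0 hy
  have hPb : ∀ y ∈ Icc a b, ‖P y‖ ≤ η := by
    intro y hy
    refine intervalIntegral.norm_integral_le_abs_integral_norm.trans ?_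
    refine (intervalIntegral.abs_integral_mono_interval (c := a) (d := b) ?_
      (Filter.Eventually.of_forall fun _ => norm_nonneg _) hi.norm).trans (abs_of_nonneg hη0).le
    rw [uIoc_of_le hab]
    exact Ioc_subset_Ioc (le_min h0.1 hy.1) (max_le h0.2 hy.2)
  have hPd : ∀ y ∈ Icc a b, HasDerivWithinAt P (e y) (Icc a b) y := by
    intro y hy
    have : Fact (y ∈ Icc a b) := ⟨hy⟩
    exact intervalIntegral.integral_hasDerivWithinAt_right
      (hi.mono_set (by rw [uIcc_of_le hab]; exact hsub y hy))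
      (he.stronglyMeasurableAtFilter_nhdsWithin measurableSet_Icc y) (he y hy)
  have h := gr (v := fun y => v y - P y) (v' := w) (a := a) (b := b) (ε := L * η + c) hL
    (by positivity) (fun y hy => ((hv y hy).sub (hPd y hy)).congr_deriv (add_sub_cancel_right _ _))
    (fun y hy => by
      have h1 : ‖v y‖ ≤ ‖v y - P y‖ + η := by
        have := norm_add_le (v y - P y) (P y)
        rw [sub_add_cancel] at this
        linarith [hPb y hy]
      have := mul_le_mul_of_nonneg_left h1 hL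
      linarith [hb y hy]) h0 hx
  have h1 : P x0 = 0 := by simp [hP]
  have h2 := norm_add_le (v x - P x) (P x)
  rw [sub_add_cancel] at h2
  simp only [h1, sub_zero] at h
  linarith [hPb x hx]

end Vale.Agent.P371EL
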