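import Mathlib

/-!
Joint diagonalisation of two commuting Hermitian matrices.
-/

set_option autoImplicit false

namespace Vale.Agent.P371EL

open Matrix

variable {ι : Type} [Fintype ι] [DecidableEq ι]

open Module.End in
theorem joint_basis (A B : Matrix ι ι ℂ) (hA : A.IsHermitian) (hB : B.IsHermitian)
    (hAB : A * B = B * A) :
    ∃ (v : OrthonormalBasis ι ℂ (EuclideanSpace ℂ ι)) (a b : ι → ℂ),
      (∀ i, toEuclideanLin A (v i) = a i • v i) ∧ (∀ i, toEuclideanLin B (v i) = b i • v i) := by
  classical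
  have hTA : (toEuclideanLin A).IsSymmetric := isSymmetric_toEuclideanLin_iff.mpr hA
  have hTB : (toEuclideanLin B).IsSymmetric := isSymmetric_toEuclideanLin_iff.mpr hB
  have hc : Commute (toEuclideanLin A) (toEuclideanLin B) := by
    refine LinearMap.ext fun x => ?_
    change toEuclideanLin A (toEuclideanLin B x) = toEuclideanLin B (toEuclideanLin A x)
    simp only [toLpLin_apply, mulVec_mulVec, hAB]
  have hint := hTA.directSum_isInternal_of_commute hTB hc
  have horth := hTA.orthogonalFamily_eigenspace_inf_eigenspace hTB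
  set W : ℂ × ℂ → Submodule ℂ (EuclideanSpace ℂ ι) := fun i =>
    eigenspace (toEuclideanLin A) i.2 ⊓ eigenspace (toEuclideanLin B) i.1 with hW
  let b : ∀ i, OrthonormalBasis (Fin (Module.finrank ℂ (W i))) ℂ (W i) := fun i =>
    stdOrthonormalBasis ℂ (W i)
  let c := hint.collectedBasis (fun i => (b i).toBasis)
  have hcv : ∀ k, c k = ((b k.1 k.2 : W k.1) : EuclideanSpace ℂ ι) := by
    intro k
    simp [c, hint.collectedBasis_coe]
  have hcmem : ∀ k, c k ∈ W k.1 := fun k => by rw [hcv]; exact (b k.1 k.2).2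
  have hco : Orthonormal ℂ c :=
    hint.collectedBasis_orthonormal horth (fun i => by simp)
  have : Fintype (Σ i, Fin (Module.finrank ℂ (W i))) := FiniteDimensional.fintypeBasisIndex c
  let ob : OrthonormalBasis _ ℂ (EuclideanSpace ℂ ι) := c.toOrthonormalBasis hco
  have hcard : Fintype.card (Σ i, Fin (Module.finrank ℂ (W i))) = Fintype.card ι := by
    rw [← Module.finrank_eq_card_basis c, finrank_euclideanSpace]
  let e := Fintype.equivOfCardEq hcard
  refine ⟨ob.reindex e, fun i => (e.symm i).1.2, fun i => (e.symm i).1.1, ?_, ?_⟩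
  · intro i
    have h1 : c (e.symm i) ∈ eigenspace (toEuclideanLin A) (e.symm i).1.2 := (hcmem (e.symm i)).1
    rw [mem_eigenspace_iff] at h1
    simpa [ob] using h1
  · intro i
    have h1 : c (e.symm i) ∈ eigenspace (toEuclideanLin B) (e.symm i).1.1 := (hcmem (e.symm i)).2
    rw [mem_eigenspace_iff] at h1
    simpa [ob] using h1

theorem diag_of_mul {A U : Matrix ι ι ℂ} (hA : A.IsHermitian) (hU : Uᴴ * U = 1) {a : ι → ℂ}
    (h : A * U = U * diagonal a) : A = U * diagonal (fun i => (((a i).re : ℝ) : ℂ)) * Uᴴ := by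
  have hU' : U * Uᴴ = 1 := mul_eq_one_comm.1 hU
  have h1 : diagonal a = Uᴴ * A * U := by
    rw [Matrix.mul_assoc, h, ← Matrix.mul_assoc, hU, Matrix.one_mul]
  have h2 : (diagonal a).IsHermitian := by
    rw [h1]; exact isHermitian_conjTranspose_mul_mul U hA
  have h3 : (fun i => (((a i).re : ℝ) : ℂ)) = a := by
    funext i
    have h4 := h2.apply i i
    rw [diagonal_apply_eq] at h4
    exact (Complex.conj_eq_iff_re.1 h4)
  rw [h3, ← h, Matrix.mul_assoc, hU', Matrix.mul_one]

/-- Two commuting Hermitian matrices are diagonal in one orthonormal basis. -/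
theorem joint_diag (A B : Matrix ι ι ℂ) (hA : A.IsHermitian) (hB : B.IsHermitian)
    (hAB : A * B = B * A) :
    ∃ (U : Matrix ι ι ℂ) (a b : ι → ℝ), Uᴴ * U = 1 ∧ U * Uᴴ = 1 ∧
      A = U * diagonal (fun i => (a i : ℂ)) * Uᴴ ∧ B = U * diagonal (fun i => (b i : ℂ)) * Uᴴ := by
  obtain ⟨v, a, b, ha, hb⟩ := joint_basis A B hA hB hAB
  let U : Matrix ι ι ℂ := Matrix.of fun i j => v j i
  have hU : Uᴴ * U = 1 := by
    ext i j
    have h := (orthonormal_iff_ite.1 v.orthonormal) i j
    rw [PiLp.inner_apply] at h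
    rw [Matrix.mul_apply, Matrix.one_apply, ← h]
    refine Finset.sum_congr rfl fun k _ => ?_
    rw [RCLike.inner_apply, mul_comm]
    rfl
  have key : ∀ (M : Matrix ι ι ℂ) (c : ι → ℂ), (∀ i, toEuclideanLin M (v i) = c i • v i) →
      M * U = U * diagonal c := by
    intro M c h
    ext i j
    have h1 := congrArg (fun w : EuclideanSpace ℂ ι => w i) (h j)
    rw [mul_diagonal, mul_comm]
    exact h1
  exact ⟨U, fun i => (a i).re, fun i => (b i).re, hU, mul_eq_one_comm.1 hU,
    diag_of_mul hA hU (key A a ha), diag_of_mul hB hU (key B b hb)⟩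

end Vale.Agent.P371EL
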